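import Mathlib

open Finset

namespace Vale.Agent.Lib.P012

section Bilinear

variable {R : Type*} [CommRing R] [Fintype R] [DecidableEq R]

/-- Pairs of `A` whose difference is annihilated by `u`. -/
noncomputable def energy (u : R) (A : Finset ℕ) : ℕ :=
  #{p ∈ A ×ˢ A | u * ((p.1 : R) - (p.2 : R)) = 0}

/-- Size of the annihilator of `u`. -/
noncomputable def annCard (u : R) : ℕ := #{v : R | u * v = 0}

lemma annCard_pos (u : R) : 0 < annCard u := by
  unfold annCard
  apply Finset.card_pos.mpr
  exact ⟨0, by simp⟩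

lemma card_filter_sub (u x : R) : #{v : R | u * (x - v) = 0} = annCard u := by
  unfold annCard
  apply Finset.card_nbij' (fun v => x - v) (fun v => x - v)
  · intro v hv
    simpa using hv
  · intro v hv
    simpa using hv
  · intro v _
    simp
  · intro v _
    simp

/-- The main Cauchy-Schwarz bound for bilinear exponential sums over a finite ring. -/
lemma bilinear_bound (ψ : AddChar R ℂ) (hψ : ψ.IsPrimitive) (u : R) (A B : Finset ℕ) :
    (annCard u : ℝ) * ‖∑ x ∈ A, ∑ y ∈ B, ψ (u * x * y)‖ ^ 2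
      ≤ (Fintype.card R : ℝ) * energy u A * energy u B := by
  classical
  set F : R → ℂ := fun v => ∑ y ∈ B, ψ (u * v * y) with hF
  set r : R → ℕ := fun v => (A.filter fun x : ℕ => u * ((x : R) - v) = 0).card with hr
  -- Step 1
  have h1 : (annCard u : ℂ) * ∑ x ∈ A, F x = ∑ v : R, (r v : ℂ) * F v := by
    have : ∀ v : R, (r v : ℂ) * F v = ∑ x ∈ A, if u * ((x : R) - v) = 0 then F x else 0 := by
      intro v
      simp only [hr, Finset.card_filter, Nat.cast_sum, Finset.sum_mul]
      apply Finset.sum_congr rfl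
      intro x _
      split_ifs with h
      · simp only [Nat.cast_one, one_mul]
        have : u * v = u * x := by
          have h' : u * x - u * v = 0 := by rw [← mul_sub]; exact h
          exact (sub_eq_zero.mp h').symm
        simp only [hF, this]
      · simp
    simp_rw [this]
    rw [Finset.mul_sum]
    symm
    rw [Finset.sum_comm]
    apply Finset.sum_congr rfl
    intro x _
    rw [Finset.sum_ite, Finset.sum_const_zero, add_zero, Finset.sum_const, card_filter_sub]
    simp
  -- Step 2 : Cauchy-Schwarz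
  have h2 : ‖∑ v : R, (r v : ℂ) * F v‖ ^ 2
      ≤ (∑ v : R, (r v : ℝ) ^ 2) * ∑ v : R, ‖F v‖ ^ 2 := by
    have hn : ‖∑ v : R, (r v : ℂ) * F v‖ ≤ ∑ v : R, (r v : ℝ) * ‖F v‖ := by
      refine (norm_sum_le _ _).trans (le_of_eq ?_)
      apply Finset.sum_congr rfl
      intro v _
      simp
    calc ‖∑ v : R, (r v : ℂ) * F v‖ ^ 2 ≤ (∑ v : R, (r v : ℝ) * ‖F v‖) ^ 2 := by
          gcongr
      _ ≤ _ := Finset.sum_mul_sq_le_sq_mul_sq _ _ _
  -- Step 3
  have h3 : ∑ v : R, (r v : ℝ) ^ 2 = (annCard u : ℝ) * energy u A := by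
    have key : ∀ v : R, (r v : ℝ) ^ 2 =
        ∑ p ∈ A ×ˢ A, if (u * ((p.1 : R) - v) = 0 ∧ u * ((p.2 : R) - v) = 0) then (1 : ℝ) else 0 := by
      intro v
      rw [Finset.sum_product]
      simp only [hr, Finset.card_filter, Nat.cast_sum, sq, Finset.sum_mul]
      apply Finset.sum_congr rfl
      intro x _
      simp only [Finset.mul_sum]
      apply Finset.sum_congr rfl
      intro y _
      by_cases hx : u * ((x : R) - v) = 0 <;> by_cases hy : u * ((y : R) - v) = 0 <;> simp [hx, hy]
    simp_rw [key]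
    rw [Finset.sum_comm]
    unfold energy
    rw [Finset.card_filter, Nat.cast_sum, Finset.mul_sum]
    apply Finset.sum_congr rfl
    rintro ⟨x, y⟩ _
    by_cases hxy : u * ((x : R) - (y : R)) = 0
    · have : ∀ v : R, (u * ((x : R) - v) = 0 ∧ u * ((y : R) - v) = 0) ↔ u * ((x : R) - v) = 0 := by
        intro v
        constructor
        · exact fun h => h.1
        · intro h
          refine ⟨h, ?_⟩
          have : u * ((y : R) - v) = u * ((x : R) - v) - u * ((x : R) - (y : R)) := by ring
          rw [this, h, hxy, sub_zero]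
      simp only [this, hxy, if_true]
      rw [Finset.sum_boole, card_filter_sub]
      simp
    · have : ∀ v : R, ¬ (u * ((x : R) - v) = 0 ∧ u * ((y : R) - v) = 0) := by
        rintro v ⟨h, h'⟩
        apply hxy
        have : u * ((x : R) - (y : R)) = u * ((x : R) - v) - u * ((y : R) - v) := by ring
        rw [this, h, h', sub_zero]
      simp [this, hxy]
  -- Step 4
  have h4 : ∑ v : R, ‖F v‖ ^ 2 = (Fintype.card R : ℝ) * energy u B := by
    have key : ∀ v : R, ((‖F v‖ ^ 2 : ℝ) : ℂ) =
        ∑ p ∈ B ×ˢ B, ψ (v * (u * ((p.1 : R) - (p.2 : R)))) := by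
      intro v
      have h : ((‖F v‖ ^ 2 : ℝ) : ℂ) = F v * (starRingEnd ℂ) (F v) := by
        rw [Complex.mul_conj, Complex.normSq_eq_norm_sq]
      rw [h, Finset.sum_product]
      simp only [hF, map_sum, Finset.sum_mul]
      apply Finset.sum_congr rfl
      intro y _
      rw [Finset.mul_sum]
      apply Finset.sum_congr rfl
      intro y' _
      rw [← AddChar.map_neg_eq_conj, ← AddChar.map_add_eq_mul]
      congr 1
      ring
    have key2 : ((∑ v : R, ‖F v‖ ^ 2 : ℝ) : ℂ) = ((Fintype.card R : ℝ) * energy u B : ℝ) := by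
      rw [Complex.ofReal_sum]
      simp_rw [key]
      rw [Finset.sum_comm]
      unfold energy
      rw [Finset.card_filter]
      push_cast
      rw [Finset.mul_sum]
      apply Finset.sum_congr rfl
      rintro ⟨y, y'⟩ _
      rw [AddChar.sum_mulShift _ hψ]
      by_cases h : u * ((y : R) - (y' : R)) = 0
      · simp [h]
      · simp [h]
    exact_mod_cast key2
  -- Conclude
  have hann : (0 : ℝ) < annCard u := by exact_mod_cast annCard_pos u
  have h5 : (annCard u : ℝ) ^ 2 * ‖∑ x ∈ A, F x‖ ^ 2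
      ≤ (annCard u : ℝ) * ((Fintype.card R : ℝ) * energy u A * energy u B) := by
    have e1 : (annCard u : ℝ) ^ 2 * ‖∑ x ∈ A, F x‖ ^ 2
        = ‖(annCard u : ℂ) * ∑ x ∈ A, F x‖ ^ 2 := by
      rw [norm_mul, mul_pow]
      simp
    rw [e1, h1]
    refine h2.trans (le_of_eq ?_)
    rw [h3, h4]
    ring
  have h6 : (annCard u : ℝ) * ‖∑ x ∈ A, F x‖ ^ 2
      ≤ (Fintype.card R : ℝ) * energy u A * energy u B := by
    have e2 : (annCard u : ℝ) * ((annCard u : ℝ) * ‖∑ x ∈ A, F x‖ ^ 2)
        ≤ (annCard u : ℝ) * ((Fintype.card R : ℝ) * energy u A * energy u B) := by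
      calc _ = (annCard u : ℝ) ^ 2 * ‖∑ x ∈ A, F x‖ ^ 2 := by ring
        _ ≤ _ := h5
    exact le_of_mul_le_mul_left e2 hann
  simpa [hF] using h6

end Bilinear

end Vale.Agent.Lib.P012
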