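import Mathlib

open Finset Real

namespace Vale.Agent.Lib.P012

/-- The primes in `(2 ^ a, 2 ^ (a + 3)]`. -/
def primesIn (a : ℕ) : Finset ℕ := (Finset.Ioc (2 ^ a) (2 ^ (a + 3))).filter Nat.Prime

lemma mem_primesIn {a p : ℕ} : p ∈ primesIn a ↔ p.Prime ∧ 2 ^ a < p ∧ p ≤ 2 ^ (a + 3) := by
  unfold primesIn
  rw [Finset.mem_filter, Finset.mem_Ioc]
  tauto

lemma four_sq_le_two_pow (a : ℕ) (ha : 12 ≤ a) : 4 * a ^ 2 ≤ 2 ^ a := by
  induction a, ha using Nat.le_induction with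
  | base => norm_num
  | succ n hn ih =>
    rw [pow_succ 2 n]
    nlinarith

lemma card_primesIn (a : ℕ) : Nat.primeCounting (2 ^ (a + 3)) =
    Nat.primeCounting (2 ^ a) + #(primesIn a) := by
  have hle : 2 ^ a ≤ 2 ^ (a + 3) := Nat.pow_le_pow_right (by norm_num) (by omega)
  have h1 : Nat.primeCounting (2 ^ (a + 3)) = #(Nat.primesLE (2 ^ (a + 3))) := by simp
  have h2 : Nat.primeCounting (2 ^ a) = #(Nat.primesLE (2 ^ a)) := by simp
  rw [h1, h2, ← Finset.card_union_of_disjoint]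
  · congr 1
    ext p
    rw [Finset.mem_union, Nat.mem_primesLE, Nat.mem_primesLE, mem_primesIn]
    constructor
    · rintro ⟨h, hp⟩
      by_cases h3 : p ≤ 2 ^ a
      · exact Or.inl ⟨h3, hp⟩
      · exact Or.inr ⟨hp, by omega, h⟩
    · rintro (⟨h, hp⟩ | ⟨hp, _, h⟩)
      · exact ⟨h.trans hle, hp⟩
      · exact ⟨h, hp⟩
  · rw [Finset.disjoint_left]
    intro p hp hp'
    rw [Nat.mem_primesLE] at hp
    rw [mem_primesIn] at hp'
    omega

/-- Chebyshev-type count of primes in `(2 ^ a, 2 ^ (a + 3)]`. -/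
theorem prime_count (a : ℕ) (ha : 12 ≤ a) : 2 ^ a ≤ a * #(primesIn a) := by
  have hL : 0 < Real.log 2 := Real.log_pos (by norm_num)
  set L := Real.log 2 with hLdef
  set x : ℝ := 2 ^ a with hx
  have hxpos : 0 < x := by positivity
  have hareal : (12 : ℝ) ≤ a := by exact_mod_cast ha
  have hapos : (0 : ℝ) < a := by linarith
  -- lower bound at 2 ^ (a + 3)
  have hlow : 8 * x / ((a : ℝ) + 3) - 2 ≤ (Nat.primeCounting (2 ^ (a + 3)) : ℝ) := by
    have h := Chebyshev.pi_ge (2 ^ (a + 3))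
    have hcast : ((2 ^ (a + 3) : ℕ) : ℝ) = 8 * x := by
      push_cast
      rw [hx, pow_add]
      ring
    have hlog : Real.log ((2 ^ (a + 3) : ℕ) : ℝ) = ((a : ℝ) + 3) * L := by
      push_cast
      rw [Real.log_pow]
      push_cast
      rfl
    have hlog2 : Real.log (((2 ^ (a + 3) : ℕ) : ℝ) + 1) ≤ ((a : ℝ) + 4) * L := by
      have h1 : ((2 ^ (a + 3) : ℕ) : ℝ) + 1 ≤ (2 : ℝ) ^ (a + 4) := by
        rw [hcast, pow_add, ← hx]
        have : (1 : ℝ) ≤ x := one_le_pow₀ (by norm_num)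
        norm_num
        linarith
      calc _ ≤ Real.log ((2 : ℝ) ^ (a + 4)) := Real.log_le_log (by positivity) h1
        _ = _ := by
          rw [Real.log_pow]
          push_cast
          rfl
    rw [hlog] at h
    refine le_trans ?_ h
    rw [hcast] at hlog2 ⊢
    have hden : 0 < ((a : ℝ) + 3) * L := by positivity
    rw [le_div_iff₀ hden]
    have h3 : (8 * x / ((a : ℝ) + 3) - 2) * (((a : ℝ) + 3) * L) = 8 * x * L - 2 * ((a : ℝ) + 3) * L := by
      field_simp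
    rw [h3]
    have h4 : ((a : ℝ) + 4) * L ≤ 2 * ((a : ℝ) + 3) * L := by
      apply mul_le_mul_of_nonneg_right _ hL.le
      linarith
    linarith
  -- upper bound at 2 ^ a
  have hup : (Nat.primeCounting (2 ^ a) : ℝ) ≤ 4 * x / a + √x := by
    have hx1 : 1 < x := by
      rw [hx]
      exact one_lt_pow₀ (by norm_num) (by omega)
    have h := Chebyshev.pi_le_log4_mul_div hx1
    have hfl : ⌊x⌋₊ = 2 ^ a := by
      rw [hx]
      exact_mod_cast Nat.floor_natCast (2 ^ a)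
    rw [hfl] at h
    refine h.trans_eq ?_
    congr 1
    have h4 : Real.log 4 = 2 * L := by
      rw [show (4 : ℝ) = 2 ^ 2 by norm_num, Real.log_pow]
      push_cast
      rfl
    have hs : Real.log √x = (a : ℝ) / 2 * L := by
      rw [Real.log_sqrt hxpos.le, hx, Real.log_pow]
      ring
    rw [h4, hs]
    field_simp
    ring
  have hsq : 2 * (a : ℝ) ≤ √x := by
    apply Real.le_sqrt_of_sq_le
    have := four_sq_le_two_pow a ha
    have h' : ((4 * a ^ 2 : ℕ) : ℝ) ≤ ((2 ^ a : ℕ) : ℝ) := by exact_mod_cast this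
    push_cast at h'
    rw [hx]
    nlinarith
  have hsqpos : 0 ≤ √x := Real.sqrt_nonneg x
  have hsqsq : √x * √x = x := Real.mul_self_sqrt hxpos.le
  have hcount : (Nat.primeCounting (2 ^ (a + 3)) : ℝ) =
      Nat.primeCounting (2 ^ a) + ((#(primesIn a) : ℕ) : ℝ) := by
    rw [card_primesIn a]
    push_cast
    rfl
  have hP : 8 * x / ((a : ℝ) + 3) - 2 - (4 * x / a + √x) ≤ ((#(primesIn a) : ℕ) : ℝ) := by
    linarith
  -- multiply by a
  have h8 : (32 / 5 : ℝ) ≤ 8 * (a : ℝ) / ((a : ℝ) + 3) := by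
    rw [le_div_iff₀ (by linarith)]
    linarith
  have hmain : x ≤ (a : ℝ) * ((#(primesIn a) : ℕ) : ℝ) := by
    have h1 : (a : ℝ) * (8 * x / ((a : ℝ) + 3) - 2 - (4 * x / a + √x)) ≤
        (a : ℝ) * ((#(primesIn a) : ℕ) : ℝ) := mul_le_mul_of_nonneg_left hP hapos.le
    have h2 : (a : ℝ) * (8 * x / ((a : ℝ) + 3) - 2 - (4 * x / a + √x)) =
        (8 * (a : ℝ) / ((a : ℝ) + 3)) * x - 2 * a - 4 * x - a * √x := by
      field_simp
      ring
    have h3 : (32 / 5 : ℝ) * x ≤ (8 * (a : ℝ) / ((a : ℝ) + 3)) * x :=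
      mul_le_mul_of_nonneg_right h8 hxpos.le
    -- x = √x * √x ≥ 2 a √x
    have h4 : 2 * (a : ℝ) * √x ≤ x := by
      calc 2 * (a : ℝ) * √x ≤ √x * √x := mul_le_mul_of_nonneg_right hsq hsqpos
        _ = x := hsqsq
    have h5 : 2 * (a : ℝ) ≤ x := by
      have : (1 : ℝ) ≤ √x := by linarith
      calc 2 * (a : ℝ) ≤ 2 * (a : ℝ) * √x := le_mul_of_one_le_right (by positivity) this
        _ ≤ x := h4
    have h6 : (a : ℝ) * √x ≤ x := by
      have : 0 ≤ (a : ℝ) * √x := by positivity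
      nlinarith
    nlinarith
  have : ((2 ^ a : ℕ) : ℝ) ≤ ((a * #(primesIn a) : ℕ) : ℝ) := by
    push_cast
    exact hmain
  exact_mod_cast this

end Vale.Agent.Lib.P012
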