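import Mathlib
import Vale.Agent.Lib.P012.Bilinear

open Finset

namespace Vale.Agent.Lib.P012

/-- The set of primes of `S` not dividing `a`. -/
def supp (S : Finset ℕ) (a : ZMod (∏ p ∈ S, p)) : Finset ℕ :=
  S.filter (fun p => ¬ p ∣ a.val)

/-- Pairs of `A` whose difference is divisible by every element of `T`. -/
def pairEnergy (T A : Finset ℕ) : ℕ :=
  #{p ∈ A ×ˢ A | ∀ q ∈ T, (q : ℤ) ∣ (p.1 : ℤ) - (p.2 : ℤ)}

lemma addChar_map_sum {R ι : Type*} [AddCommMonoid R] (ψ : AddChar R ℂ) (s : Finset ι) (f : ι → R) :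
    ψ (∑ i ∈ s, f i) = ∏ i ∈ s, ψ (f i) := by
  classical
  induction s using Finset.induction_on with
  | empty => simp
  | insert a s ha ih => rw [Finset.sum_insert ha, Finset.prod_insert ha, AddChar.map_add_eq_mul, ih]

lemma prod_pos_of_primes {S : Finset ℕ} (hS : ∀ p ∈ S, p.Prime ∧ 6 < p) : 0 < ∏ p ∈ S, p :=
  Finset.prod_pos fun p hp => (hS p hp).1.pos

lemma int_dvd_prod_iff {S : Finset ℕ} (hS : ∀ p ∈ S, p.Prime ∧ 6 < p) (w : ℤ) :
    ((∏ p ∈ S, p : ℕ) : ℤ) ∣ w ↔ ∀ p ∈ S, (p : ℤ) ∣ w := by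
  constructor
  · intro h p hp
    refine dvd_trans ?_ h
    exact Int.natCast_dvd_natCast.mpr (Finset.dvd_prod_of_mem _ hp)
  · intro h
    rw [Int.natCast_dvd]
    apply Finset.prod_primes_dvd
    · intro p hp
      exact (hS p hp).1.prime
    · intro p hp
      exact Int.natCast_dvd.mp (h p hp)

lemma mul_cast_eq_zero_iff {S : Finset ℕ} (hS : ∀ p ∈ S, p.Prime ∧ 6 < p)
    [NeZero (∏ p ∈ S, p)] (a : ZMod (∏ p ∈ S, p)) (j : ℕ) (hj1 : 1 ≤ j) (hj6 : j ≤ 6) (z : ℤ) :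
    ((j : ZMod (∏ p ∈ S, p)) * a) * (z : ZMod (∏ p ∈ S, p)) = 0 ↔ ∀ q ∈ supp S a, (q : ℤ) ∣ z := by
  have e : ((j : ZMod (∏ p ∈ S, p)) * a) * (z : ZMod (∏ p ∈ S, p))
      = (((j : ℤ) * (a.val : ℤ) * z : ℤ) : ZMod (∏ p ∈ S, p)) := by
    push_cast
    rw [ZMod.natCast_zmod_val]
  rw [e, ZMod.intCast_zmod_eq_zero_iff_dvd, int_dvd_prod_iff hS]
  constructor
  · intro h q hq
    have hq' := Finset.mem_filter.mp hq
    have hp := (hS q hq'.1).1
    have hpz := Nat.prime_iff_prime_int.mp hp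
    have := h q hq'.1
    rcases hpz.dvd_mul.mp this with h1 | h1
    · rcases hpz.dvd_mul.mp h1 with h2 | h2
      · exfalso
        have := Nat.le_of_dvd (by omega) (Int.natCast_dvd_natCast.mp h2)
        have := (hS q hq'.1).2
        omega
      · exact absurd (Int.natCast_dvd_natCast.mp h2) hq'.2
    · exact h1
  · intro h p hp
    by_cases hpa : p ∣ a.val
    · have : (p : ℤ) ∣ (a.val : ℤ) := Int.natCast_dvd_natCast.mpr hpa
      exact Dvd.dvd.mul_right (Dvd.dvd.mul_left this _) _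
    · exact Dvd.dvd.mul_left (h p (Finset.mem_filter.mpr ⟨hp, hpa⟩)) _

lemma energy_eq_pairEnergy {S : Finset ℕ} (hS : ∀ p ∈ S, p.Prime ∧ 6 < p)
    [NeZero (∏ p ∈ S, p)] (a : ZMod (∏ p ∈ S, p)) (j : ℕ) (hj1 : 1 ≤ j) (hj6 : j ≤ 6)
    (A : Finset ℕ) :
    energy ((j : ZMod (∏ p ∈ S, p)) * a) A = pairEnergy (supp S a) A := by
  unfold energy pairEnergy
  congr 1
  apply Finset.filter_congr
  rintro ⟨x, y⟩ _
  rw [← mul_cast_eq_zero_iff hS a j hj1 hj6]
  push_cast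
  rfl

lemma supp_subset (S : Finset ℕ) (a : ZMod (∏ p ∈ S, p)) : supp S a ⊆ S := Finset.filter_subset _ _

lemma card_le_mul_annCard {S : Finset ℕ} (hS : ∀ p ∈ S, p.Prime ∧ 6 < p)
    [NeZero (∏ p ∈ S, p)] (a : ZMod (∏ p ∈ S, p)) (j : ℕ) (hj1 : 1 ≤ j) (hj6 : j ≤ 6) :
    (∏ p ∈ S, p) ≤ (∏ p ∈ supp S a, p) * annCard ((j : ZMod (∏ p ∈ S, p)) * a) := by
  set T := supp S a with hT
  set q := ∏ p ∈ T, p with hq
  set d := ∏ p ∈ S \ T, p with hd
  have hprod : d * q = ∏ p ∈ S, p := Finset.prod_sdiff (supp_subset S a)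
  have hqpos : 0 < q := Finset.prod_pos fun p hp => (hS p (supp_subset S a hp)).1.pos
  have hdle : d ≤ annCard ((j : ZMod (∏ p ∈ S, p)) * a) := by
    have := Finset.card_le_card_of_injOn (s := Finset.range d)
      (t := ((Finset.univ : Finset (ZMod (∏ p ∈ S, p))).filter
        (fun v => ((j : ZMod (∏ p ∈ S, p)) * a) * v = 0)))
      (fun k => ((q * k : ℕ) : ZMod (∏ p ∈ S, p))) ?_ ?_
    · simpa [annCard] using this
    · intro k _
      simp only [Finset.coe_filter, Finset.mem_univ, true_and, Set.mem_ofPred_eq]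
      have e : ((q * k : ℕ) : ZMod (∏ p ∈ S, p)) = (((q * k : ℕ) : ℤ) : ZMod (∏ p ∈ S, p)) := by
        push_cast; rfl
      rw [e, mul_cast_eq_zero_iff hS a j hj1 hj6]
      intro r hr
      have : r ∣ q * k := Dvd.dvd.mul_right (Finset.dvd_prod_of_mem _ hr) _
      exact Int.natCast_dvd_natCast.mpr this
    · intro k hk k' hk' hkk
      have hk : k < d := by simpa using hk
      have hk' : k' < d := by simpa using hk'
      have h := (ZMod.natCast_eq_natCast_iff' _ _ _).mp hkk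
      have hlt : q * k < ∏ p ∈ S, p := by
        rw [← hprod, mul_comm d q]
        exact Nat.mul_lt_mul_of_pos_left hk hqpos
      have hlt' : q * k' < ∏ p ∈ S, p := by
        rw [← hprod, mul_comm d q]
        exact Nat.mul_lt_mul_of_pos_left hk' hqpos
      rw [Nat.mod_eq_of_lt hlt, Nat.mod_eq_of_lt hlt'] at h
      exact Nat.eq_of_mul_eq_mul_left hqpos h
  calc (∏ p ∈ S, p) = q * d := by rw [← hprod, mul_comm]
    _ ≤ _ := Nat.mul_le_mul_left _ hdle

lemma card_fiber_le {S : Finset ℕ} (hS : ∀ p ∈ S, p.Prime ∧ 6 < p)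
    [NeZero (∏ p ∈ S, p)] (T : Finset ℕ) (hT : T ⊆ S) :
    #{a : ZMod (∏ p ∈ S, p) | supp S a = T} ≤ ∏ p ∈ T, p := by
  set q := ∏ p ∈ T, p with hq
  set d := ∏ p ∈ S \ T, p with hd
  have hprod : d * q = ∏ p ∈ S, p := Finset.prod_sdiff hT
  have hdpos : 0 < d := Finset.prod_pos fun p hp => (hS p (Finset.sdiff_subset hp)).1.pos
  have key : ∀ a : ZMod (∏ p ∈ S, p), supp S a = T → d ∣ a.val := by
    intro a ha
    apply Finset.prod_primes_dvd
    · intro p hp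
      exact (hS p (Finset.sdiff_subset hp)).1.prime
    · intro p hp
      have hp' := Finset.mem_sdiff.mp hp
      by_contra hnd
      apply hp'.2
      rw [← ha]
      exact Finset.mem_filter.mpr ⟨hp'.1, hnd⟩
  have := Finset.card_le_card_of_injOn (s := ((Finset.univ : Finset (ZMod (∏ p ∈ S, p))).filter
      (fun a => supp S a = T))) (t := Finset.range q) (fun a => a.val / d) ?_ ?_
  · simpa using this
  · intro a ha
    have ha' : supp S a = T := by simpa using ha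
    simp only [Finset.coe_range, Set.mem_Iio]
    apply Nat.div_lt_of_lt_mul
    rw [hprod]
    exact ZMod.val_lt a
  · intro a ha b hb hab
    have ha' : supp S a = T := by simpa using ha
    have hb' : supp S b = T := by simpa using hb
    have h1 := Nat.div_mul_cancel (key a ha')
    have h2 := Nat.div_mul_cancel (key b hb')
    simp only at hab
    apply ZMod.val_injective
    rw [← h1, ← h2, hab]

/-- The energy form of the sum. -/
theorem cover {S : Finset ℕ} (hS : ∀ p ∈ S, p.Prime ∧ 6 < p) (A B : Finset ℕ)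
    (hH : ∑ T ∈ S.powerset.filter (· ≠ ∅), ((∏ q ∈ T, q : ℕ) : ℝ) ^ 4 *
        (((pairEnergy T A : ℕ) : ℝ) * ((pairEnergy T B : ℕ) : ℝ)) ^ 3
      < (((#A : ℕ) : ℝ) * ((#B : ℕ) : ℝ)) ^ 6) (c : ℤ) :
    ∃ τ : Fin 6 → ℕ × ℕ, (∀ i, (τ i).1 ∈ A ∧ (τ i).2 ∈ B) ∧
      ((∏ p ∈ S, p : ℕ) : ℤ) ∣
        (∑ i : Fin 6, (((i : ℕ) + 1 : ℕ) : ℤ) * ((τ i).1 : ℤ) * ((τ i).2 : ℤ)) - c := by
  classical
  by_contra hno
  push Not at hno
  have : NeZero (∏ p ∈ S, p) := ⟨(prod_pos_of_primes hS).ne'⟩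
  set Q := ∏ p ∈ S, p with hQ
  set ψ : AddChar (ZMod Q) ℂ := ZMod.stdAddChar with hψdef
  have hψ : ψ.IsPrimitive := ZMod.isPrimitive_stdAddChar Q
  set Sm : ZMod Q → ℂ := fun u => ∑ x ∈ A, ∑ y ∈ B, ψ (u * x * y) with hSm
  -- the sum over tuples
  have hident : ∑ a : ZMod Q, ψ (- (a * (c : ZMod Q))) *
      ∏ i : Fin 6, Sm ((((i : ℕ) + 1 : ℕ) : ZMod Q) * a) = 0 := by
    have h1 : ∀ a : ZMod Q, ∏ i : Fin 6, Sm ((((i : ℕ) + 1 : ℕ) : ZMod Q) * a)
        = ∑ τ ∈ Fintype.piFinset (fun _ : Fin 6 => A ×ˢ B),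
          ψ (a * ∑ i : Fin 6, (((i : ℕ) + 1 : ℕ) : ZMod Q) * ((τ i).1 : ZMod Q) * ((τ i).2 : ZMod Q)) := by
      intro a
      have h2 : ∀ i : Fin 6, Sm ((((i : ℕ) + 1 : ℕ) : ZMod Q) * a)
          = ∑ w ∈ A ×ˢ B, ψ (((((i : ℕ) + 1 : ℕ) : ZMod Q) * a) * (w.1 : ZMod Q) * (w.2 : ZMod Q)) := by
        intro i
        rw [Finset.sum_product]
      simp_rw [h2]
      rw [Finset.prod_univ_sum]
      apply Finset.sum_congr rfl
      intro τ _
      rw [Finset.mul_sum, addChar_map_sum]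
      apply Finset.prod_congr rfl
      intro i _
      congr 1
      ring
    simp only [h1]
    rw [Finset.sum_congr rfl (fun a _ => Finset.mul_sum _ _ _), Finset.sum_comm]
    apply Finset.sum_eq_zero
    intro τ hτ
    have hmem := Fintype.mem_piFinset.mp hτ
    have h3 : ∀ a : ZMod Q, ψ (-(a * (c : ZMod Q))) *
        ψ (a * ∑ i : Fin 6, (((i : ℕ) + 1 : ℕ) : ZMod Q) * ((τ i).1 : ZMod Q) * ((τ i).2 : ZMod Q))
        = ψ (a * (∑ i : Fin 6, (((i : ℕ) + 1 : ℕ) : ZMod Q) * ((τ i).1 : ZMod Q) * ((τ i).2 : ZMod Q)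
            - (c : ZMod Q))) := by
      intro a
      rw [← AddChar.map_add_eq_mul]
      congr 1
      ring
    simp_rw [h3]
    rw [AddChar.sum_mulShift _ hψ]
    have hne : (∑ i : Fin 6, (((i : ℕ) + 1 : ℕ) : ZMod Q) * ((τ i).1 : ZMod Q) * ((τ i).2 : ZMod Q)
            - (c : ZMod Q)) ≠ 0 := by
      intro h0
      apply hno τ
      · intro i
        exact Finset.mem_product.mp (hmem i)
      · have h4 : (((∑ i : Fin 6, (((i : ℕ) + 1 : ℕ) : ℤ) * ((τ i).1 : ℤ) * ((τ i).2 : ℤ)) - c : ℤ)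
            : ZMod Q) = 0 := by
          push_cast
          push_cast at h0
          exact h0
        exact (ZMod.intCast_zmod_eq_zero_iff_dvd _ _).mp h4
    rw [if_neg hne]
    simp
  -- isolate the term `a = 0`
  have hzero : ψ (-((0 : ZMod Q) * (c : ZMod Q))) *
      ∏ i : Fin 6, Sm ((((i : ℕ) + 1 : ℕ) : ZMod Q) * 0) = ((((#A : ℕ) : ℂ) * ((#B : ℕ) : ℂ))) ^ 6 := by
    have h0 : Sm 0 = ((#A : ℕ) : ℂ) * ((#B : ℕ) : ℂ) := by
      simp [hSm]
    simp [h0]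
  have hsplit := Finset.add_sum_erase (Finset.univ : Finset (ZMod Q))
    (fun a => ψ (- (a * (c : ZMod Q))) * ∏ i : Fin 6, Sm ((((i : ℕ) + 1 : ℕ) : ZMod Q) * a))
    (Finset.mem_univ 0)
  rw [hident, hzero] at hsplit
  have hmain : ((((#A : ℕ) : ℝ) * ((#B : ℕ) : ℝ))) ^ 6 ≤
      ∑ a ∈ (Finset.univ : Finset (ZMod Q)).erase 0,
        ∏ i : Fin 6, ‖Sm ((((i : ℕ) + 1 : ℕ) : ZMod Q) * a)‖ := by
    have h5 : (((#A : ℕ) : ℂ) * ((#B : ℕ) : ℂ)) ^ 6 =
        - ∑ a ∈ (Finset.univ : Finset (ZMod Q)).erase 0,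
          ψ (- (a * (c : ZMod Q))) * ∏ i : Fin 6, Sm ((((i : ℕ) + 1 : ℕ) : ZMod Q) * a) :=
      eq_neg_of_add_eq_zero_left hsplit
    have h6 := congrArg norm h5
    rw [norm_neg, norm_pow, norm_mul] at h6
    simp only [Complex.norm_natCast] at h6
    rw [h6]
    refine (norm_sum_le _ _).trans (le_of_eq ?_)
    apply Finset.sum_congr rfl
    intro a _
    rw [norm_mul, AddChar.norm_apply, one_mul, norm_prod]
  -- the bound on each term
  set W : Finset ℕ → ℝ := fun T => ((∏ q ∈ T, q : ℕ) : ℝ) *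
    (((pairEnergy T A : ℕ) : ℝ) * ((pairEnergy T B : ℕ) : ℝ)) with hW
  have hWnn : ∀ T, 0 ≤ W T := fun T => by positivity
  have hterm : ∀ a : ZMod Q, ∀ i : Fin 6,
      ‖Sm ((((i : ℕ) + 1 : ℕ) : ZMod Q) * a)‖ ^ 2 ≤ W (supp S a) := by
    intro a i
    have hj1 : 1 ≤ (i : ℕ) + 1 := by omega
    have hj6 : (i : ℕ) + 1 ≤ 6 := by have := i.isLt; omega
    have hb := bilinear_bound ψ hψ (((((i : ℕ) + 1 : ℕ) : ZMod Q)) * a) A B
    rw [energy_eq_pairEnergy hS a _ hj1 hj6 A, energy_eq_pairEnergy hS a _ hj1 hj6 B, ZMod.card] at hb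
    have hc := card_le_mul_annCard hS a _ hj1 hj6
    have hann : (0 : ℝ) < annCard (((((i : ℕ) + 1 : ℕ) : ZMod Q)) * a) := by
      exact_mod_cast annCard_pos _
    have hc' : ((Q : ℕ) : ℝ) ≤ ((∏ q ∈ supp S a, q : ℕ) : ℝ) *
        annCard (((((i : ℕ) + 1 : ℕ) : ZMod Q)) * a) := by exact_mod_cast hc
    have h7 : (annCard (((((i : ℕ) + 1 : ℕ) : ZMod Q)) * a) : ℝ) *
        ‖Sm ((((i : ℕ) + 1 : ℕ) : ZMod Q) * a)‖ ^ 2
        ≤ (annCard (((((i : ℕ) + 1 : ℕ) : ZMod Q)) * a) : ℝ) * W (supp S a) := by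
      calc _ ≤ (Q : ℝ) * ((pairEnergy (supp S a) A : ℕ) : ℝ) * ((pairEnergy (supp S a) B : ℕ) : ℝ) := hb
        _ ≤ (((∏ q ∈ supp S a, q : ℕ) : ℝ) * annCard (((((i : ℕ) + 1 : ℕ) : ZMod Q)) * a)) *
            ((pairEnergy (supp S a) A : ℕ) : ℝ) * ((pairEnergy (supp S a) B : ℕ) : ℝ) := by
            gcongr
        _ = _ := by simp only [hW]; ring
    exact le_of_mul_le_mul_left h7 hann
  have hprodterm : ∀ a : ZMod Q,
      ∏ i : Fin 6, ‖Sm ((((i : ℕ) + 1 : ℕ) : ZMod Q) * a)‖ ≤ W (supp S a) ^ 3 := by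
    intro a
    have h8 : (∏ i : Fin 6, ‖Sm ((((i : ℕ) + 1 : ℕ) : ZMod Q) * a)‖) ^ 2 ≤ (W (supp S a) ^ 3) ^ 2 := by
      rw [← Finset.prod_pow]
      calc ∏ i : Fin 6, ‖Sm ((((i : ℕ) + 1 : ℕ) : ZMod Q) * a)‖ ^ 2
          ≤ ∏ _i : Fin 6, W (supp S a) := by
            apply Finset.prod_le_prod
            · intro i _; positivity
            · intro i _; exact hterm a i
        _ = (W (supp S a) ^ 3) ^ 2 := by
            simp only [Finset.prod_const, Finset.card_univ, Fintype.card_fin]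
            ring
    exact (pow_le_pow_iff_left₀ (Finset.prod_nonneg fun i _ => norm_nonneg _)
      (pow_nonneg (hWnn _) 3) two_ne_zero).mp h8
  -- the grouping
  have hne : ∀ a ∈ (Finset.univ : Finset (ZMod Q)).erase 0,
      supp S a ∈ S.powerset.filter (· ≠ ∅) := by
    intro a ha
    refine Finset.mem_filter.mpr ⟨Finset.mem_powerset.mpr (supp_subset S a), ?_⟩
    intro h0
    apply (Finset.mem_erase.mp ha).1
    have hdvd : Q ∣ a.val := by
      apply Finset.prod_primes_dvd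
      · intro p hp
        exact (hS p hp).1.prime
      · intro p hp
        by_contra hnd
        have : p ∈ supp S a := Finset.mem_filter.mpr ⟨hp, hnd⟩
        rw [h0] at this
        simp at this
    have hlt := ZMod.val_lt a
    have hval : a.val = 0 := Nat.eq_zero_of_dvd_of_lt hdvd hlt
    exact (ZMod.val_eq_zero a).mp hval
  have hgroup : ∑ a ∈ (Finset.univ : Finset (ZMod Q)).erase 0, W (supp S a) ^ 3
      ≤ ∑ T ∈ S.powerset.filter (· ≠ ∅), ((∏ q ∈ T, q : ℕ) : ℝ) ^ 4 *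
        (((pairEnergy T A : ℕ) : ℝ) * ((pairEnergy T B : ℕ) : ℝ)) ^ 3 := by
    rw [← Finset.sum_fiberwise_of_maps_to hne]
    apply Finset.sum_le_sum
    intro T hT
    have hTS : T ⊆ S := Finset.mem_powerset.mp (Finset.mem_filter.mp hT).1
    have hfib : (((Finset.univ : Finset (ZMod Q)).erase 0).filter (fun a => supp S a = T)).card
        ≤ ∏ q ∈ T, q := by
      refine le_trans (Finset.card_le_card ?_) (card_fiber_le hS T hTS)
      intro a ha
      exact Finset.mem_filter.mpr ⟨Finset.mem_univ _, (Finset.mem_filter.mp ha).2⟩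
    calc ∑ a ∈ ((Finset.univ : Finset (ZMod Q)).erase 0).filter (fun a => supp S a = T), W (supp S a) ^ 3
        = ∑ _a ∈ ((Finset.univ : Finset (ZMod Q)).erase 0).filter (fun a => supp S a = T), W T ^ 3 := by
          apply Finset.sum_congr rfl
          intro a ha
          rw [(Finset.mem_filter.mp ha).2]
      _ = (((((Finset.univ : Finset (ZMod Q)).erase 0).filter (fun a => supp S a = T)).card : ℕ) : ℝ)
            * W T ^ 3 := by
          rw [Finset.sum_const, nsmul_eq_mul]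
      _ ≤ ((∏ q ∈ T, q : ℕ) : ℝ) * W T ^ 3 := by
          gcongr
      _ = _ := by simp only [hW]; ring
  have hfinal : ((((#A : ℕ) : ℝ) * ((#B : ℕ) : ℝ))) ^ 6
      ≤ ∑ T ∈ S.powerset.filter (· ≠ ∅), ((∏ q ∈ T, q : ℕ) : ℝ) ^ 4 *
        (((pairEnergy T A : ℕ) : ℝ) * ((pairEnergy T B : ℕ) : ℝ)) ^ 3 :=
    hmain.trans ((Finset.sum_le_sum fun a _ => hprodterm a).trans hgroup)
  exact absurd hH (not_lt.mpr hfinal)

end Vale.Agent.Lib.P012
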