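import Mathlib

open Finset

namespace Vale.Agent.Lib.P012

lemma sum_powerset_pow (S : Finset ℕ) (α : ℝ) : ∑ T ∈ S.powerset, α ^ #T = (1 + α) ^ #S := by
  have := Finset.sum_pow_mul_eq_add_pow α 1 S
  simp only [one_pow, mul_one] at this
  rw [this, add_comm]

lemma sum_powerset_ne_pow (S : Finset ℕ) (α : ℝ) :
    ∑ T ∈ S.powerset.filter (· ≠ ∅), α ^ #T = (1 + α) ^ #S - 1 := by
  have h := Finset.sum_filter_add_sum_filter_not S.powerset (· ≠ ∅) (fun T => α ^ #T)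
  rw [sum_powerset_pow] at h
  have h2 : S.powerset.filter (fun T => ¬ T ≠ ∅) = {∅} := by
    ext T
    simp only [Finset.mem_filter, Finset.mem_powerset, not_not, Finset.mem_singleton]
    constructor
    · exact fun h => h.2
    · rintro rfl
      simp
  rw [h2] at h
  simp at h
  linarith

lemma add_pow_six_le {u v : ℝ} (hu : 0 ≤ u) (hv : 0 ≤ v) : (u + v) ^ 6 ≤ 64 * (u ^ 6 + v ^ 6) := by
  rcases le_total u v with h | h
  · calc (u + v) ^ 6 ≤ (2 * v) ^ 6 := by gcongr; linarith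
      _ = 64 * v ^ 6 := by ring
      _ ≤ _ := by nlinarith [pow_nonneg hu 6]
  · calc (u + v) ^ 6 ≤ (2 * u) ^ 6 := by gcongr; linarith
      _ = 64 * u ^ 6 := by ring
      _ ≤ _ := by nlinarith [pow_nonneg hv 6]

/-- The numeric heart of the stage: bounds on the energies imply the hypothesis of `cover`. -/
theorem numeric_bound (S : Finset ℕ) {G μ Y : ℝ} (hG : 0 < G) (hμ : 0 ≤ μ) (hY : 0 ≤ Y)
    (hSY : ∀ p ∈ S, (p : ℝ) ≤ Y) (EA EB : Finset ℕ → ℝ)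
    (hEA : ∀ T ∈ S.powerset.filter (· ≠ ∅), 0 ≤ EA T ∧ EA T ≤ G + 6 * G ^ 2 * μ ^ #T)
    (hEB : ∀ T ∈ S.powerset.filter (· ≠ ∅), 0 ≤ EB T ∧ EB T ≤ G + 6 * G ^ 2 * μ ^ #T)
    (h1 : 128 * (1 + Y ^ 4) ^ #S ≤ G ^ 6)
    (h2 : 2985984 * ((1 + Y ^ 4 * μ ^ 6) ^ #S - 1) ≤ 1 / 2) :
    ∑ T ∈ S.powerset.filter (· ≠ ∅), ((∏ q ∈ T, q : ℕ) : ℝ) ^ 4 * (EA T * EB T) ^ 3
      < (G * G) ^ 6 := by
  have hterm : ∀ T ∈ S.powerset.filter (· ≠ ∅),
      ((∏ q ∈ T, q : ℕ) : ℝ) ^ 4 * (EA T * EB T) ^ 3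
      ≤ 64 * G ^ 6 * (Y ^ 4) ^ #T + 2985984 * G ^ 12 * (Y ^ 4 * μ ^ 6) ^ #T := by
    intro T hT
    have hTS : T ⊆ S := Finset.mem_powerset.mp (Finset.mem_filter.mp hT).1
    have hq : ((∏ q ∈ T, q : ℕ) : ℝ) ≤ Y ^ #T := by
      push_cast
      calc ∏ q ∈ T, (q : ℝ) ≤ ∏ _q ∈ T, Y := Finset.prod_le_prod (fun _ _ => by positivity)
            (fun q hq => hSY q (hTS hq))
        _ = Y ^ #T := by rw [Finset.prod_const]
    have hq0 : (0 : ℝ) ≤ ((∏ q ∈ T, q : ℕ) : ℝ) := by positivity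
    obtain ⟨hA0, hA1⟩ := hEA T hT
    obtain ⟨hB0, hB1⟩ := hEB T hT
    set L := G + 6 * G ^ 2 * μ ^ #T with hL
    have hv0 : 0 ≤ 6 * G ^ 2 * μ ^ #T := by positivity
    have hE : (EA T * EB T) ^ 3 ≤ L ^ 6 := by
      calc (EA T * EB T) ^ 3 ≤ (L * L) ^ 3 := by gcongr
        _ = L ^ 6 := by ring
    have hL6 : L ^ 6 ≤ 64 * (G ^ 6 + (6 * G ^ 2 * μ ^ #T) ^ 6) := add_pow_six_le hG.le hv0
    calc ((∏ q ∈ T, q : ℕ) : ℝ) ^ 4 * (EA T * EB T) ^ 3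
        ≤ (Y ^ #T) ^ 4 * (64 * (G ^ 6 + (6 * G ^ 2 * μ ^ #T) ^ 6)) := by
          gcongr
          exact hE.trans hL6
      _ = _ := by ring
  have hsum := Finset.sum_le_sum hterm
  rw [Finset.sum_add_distrib, ← Finset.mul_sum, ← Finset.mul_sum, sum_powerset_ne_pow,
    sum_powerset_ne_pow] at hsum
  have hG6 : 0 < G ^ 6 := by positivity
  have e1 : 64 * G ^ 6 * ((1 + Y ^ 4) ^ #S - 1) < G ^ 12 / 2 := by
    have : 128 * (1 + Y ^ 4) ^ #S * G ^ 6 ≤ G ^ 6 * G ^ 6 := by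
      gcongr
    nlinarith
  have e2 : 2985984 * G ^ 12 * ((1 + Y ^ 4 * μ ^ 6) ^ #S - 1) ≤ G ^ 12 / 2 := by
    have hG12 : 0 < G ^ 12 := by positivity
    have := mul_le_mul_of_nonneg_left h2 hG12.le
    nlinarith
  have e3 : (G * G) ^ 6 = G ^ 12 := by ring
  rw [e3]
  linarith

lemma one_add_pow_le {ε : ℝ} (hε : 0 ≤ ε) (s : ℕ) (hs : (s : ℝ) * ε ≤ 1 / 2) :
    (1 + ε) ^ s ≤ 1 + 2 * s * ε := by
  induction s with
  | zero => simp
  | succ n ih =>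
    have hn : (n : ℝ) * ε ≤ 1 / 2 := by
      have : (n : ℝ) ≤ ((n + 1 : ℕ) : ℝ) := by push_cast; linarith
      exact (mul_le_mul_of_nonneg_right this hε).trans hs
    have := ih hn
    rw [pow_succ]
    push_cast
    have h0 : 0 ≤ 1 + ε := by linarith
    calc (1 + ε) ^ n * (1 + ε) ≤ (1 + 2 * n * ε) * (1 + ε) := by gcongr
      _ = 1 + (2 * n + 1) * ε + 2 * (n * ε) * ε := by ring
      _ ≤ 1 + (2 * n + 1) * ε + 2 * (1 / 2) * ε := by gcongr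
      _ = _ := by ring

lemma one_add_inv_pow_le_three (s : ℕ) (hs : 0 < s) : (1 + 1 / (s : ℝ)) ^ s ≤ 3 := by
  have hs' : (0 : ℝ) < s := by exact_mod_cast hs
  have h1 : 1 + 1 / (s : ℝ) ≤ Real.exp (1 / s) := by
    have := Real.add_one_le_exp (1 / (s : ℝ))
    linarith
  calc (1 + 1 / (s : ℝ)) ^ s ≤ (Real.exp (1 / s)) ^ s := by gcongr
    _ = Real.exp 1 := by
        rw [← Real.exp_nat_mul]
        congr 1
        field_simp
    _ ≤ 3 := by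
        have := Real.exp_one_lt_d9
        linarith

end Vale.Agent.Lib.P012
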