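import Mathlib

open Finset

namespace Vale.Agent.Lib.P012

section Select

variable {ι : Type*}

/-- Members of `X` whose value is divisible by every element of `T`. -/
def cnt (X : Finset ι) (f : ι → ℤ) (T : Finset ℕ) : ℕ :=
  #{i ∈ X | ∀ q ∈ T, (q : ℤ) ∣ f i}

/-- The potential function. -/
noncomputable def pot (X : Finset ι) (f : ι → ℤ) (β : ℝ) (S : Finset ℕ) : ℝ :=
  ∑ T ∈ S.powerset, (cnt X f T : ℝ) * β ^ #T

lemma pot_nonneg (X : Finset ι) (f : ι → ℤ) {β : ℝ} (hβ : 0 ≤ β) (S : Finset ℕ) :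
    0 ≤ pot X f β S :=
  Finset.sum_nonneg fun T _ => by positivity

lemma pot_insert (X : Finset ι) (f : ι → ℤ) (β : ℝ) {S : Finset ℕ} {p : ℕ} (hp : p ∉ S) :
    pot X f β (insert p S) = pot X f β S +
      β * ∑ T ∈ S.powerset, (cnt X f (insert p T) : ℝ) * β ^ #T := by
  unfold pot
  rw [Finset.sum_powerset_insert hp, Finset.mul_sum]
  congr 1
  apply Finset.sum_congr rfl
  intro T hT
  have hpT : p ∉ T := fun h => hp (Finset.mem_powerset.mp hT h)
  rw [Finset.card_insert_of_notMem hpT, pow_succ]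
  ring

lemma sum_cnt_insert_le (X : Finset ι) (f : ι → ℤ) (P' : Finset ℕ) (z : ℕ)
    (hz : ∀ i ∈ X, #(P'.filter fun p : ℕ => (p : ℤ) ∣ f i) ≤ z) (T : Finset ℕ) :
    ∑ p ∈ P', cnt X f (insert p T) ≤ z * cnt X f T := by
  unfold cnt
  have h1 : ∀ p ∈ P', #{i ∈ X | ∀ q ∈ insert p T, (q : ℤ) ∣ f i}
      = #{i ∈ X.filter (fun i => ∀ q ∈ T, (q : ℤ) ∣ f i) | (p : ℤ) ∣ f i} := by
    intro p _
    congr 1
    ext i
    simp only [Finset.mem_filter, Finset.mem_insert, forall_eq_or_imp]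
    tauto
  rw [Finset.sum_congr rfl h1]
  have h2 : ∑ p ∈ P', #{i ∈ X.filter (fun i => ∀ q ∈ T, (q : ℤ) ∣ f i) | (p : ℤ) ∣ f i}
      = ∑ i ∈ X.filter (fun i => ∀ q ∈ T, (q : ℤ) ∣ f i), #(P'.filter fun p : ℕ => (p : ℤ) ∣ f i) := by
    simp only [Finset.card_filter]
    rw [Finset.sum_comm]
  rw [h2]
  calc _ ≤ ∑ _i ∈ X.filter (fun i => ∀ q ∈ T, (q : ℤ) ∣ f i), z :=
        Finset.sum_le_sum fun i hi => hz i (Finset.mem_filter.mp hi).1
    _ = _ := by rw [Finset.sum_const, smul_eq_mul, mul_comm]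

lemma exists_step (X : Finset ι) (f : ι → ℤ) {β t : ℝ} (hβ : 0 ≤ β) (S P' : Finset ℕ)
    (hne : P'.Nonempty) (hdisj : ∀ p ∈ P', p ∉ S) (z : ℕ)
    (hz : ∀ i ∈ X, #(P'.filter fun p : ℕ => (p : ℤ) ∣ f i) ≤ z) (hroom : β * z ≤ t * #P') :
    ∃ p ∈ P', pot X f β (insert p S) ≤ pot X f β S * (1 + t) := by
  apply Finset.exists_le_of_sum_le hne
  have hpot := pot_nonneg X f hβ S
  have h1 : ∑ p ∈ P', pot X f β (insert p S)
      = #P' * pot X f β S + β * ∑ T ∈ S.powerset,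
          (∑ p ∈ P', (cnt X f (insert p T) : ℝ)) * β ^ #T := by
    rw [Finset.sum_congr rfl (fun p hp => pot_insert X f β (hdisj p hp)), Finset.sum_add_distrib,
      Finset.sum_const, nsmul_eq_mul, ← Finset.mul_sum]
    congr 2
    rw [Finset.sum_comm]
    apply Finset.sum_congr rfl
    intro T _
    rw [Finset.sum_mul]
  have h2 : ∑ T ∈ S.powerset, (∑ p ∈ P', (cnt X f (insert p T) : ℝ)) * β ^ #T
      ≤ z * pot X f β S := by
    unfold pot
    rw [Finset.mul_sum]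
    apply Finset.sum_le_sum
    intro T _
    have h3 : (∑ p ∈ P', (cnt X f (insert p T) : ℝ)) ≤ (z : ℝ) * cnt X f T := by
      exact_mod_cast sum_cnt_insert_le X f P' z hz T
    calc _ ≤ (z : ℝ) * cnt X f T * β ^ #T := by gcongr
      _ = _ := by ring
  rw [h1, Finset.sum_const, nsmul_eq_mul]
  have h4 : β * ∑ T ∈ S.powerset, (∑ p ∈ P', (cnt X f (insert p T) : ℝ)) * β ^ #T
      ≤ t * #P' * pot X f β S := by
    calc _ ≤ β * (z * pot X f β S) := by gcongr
      _ = (β * z) * pot X f β S := by ring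
      _ ≤ _ := by gcongr
  nlinarith

theorem exists_good (X : Finset ι) (f : ι → ℤ) (P : Finset ℕ) (z s M : ℕ) {β t : ℝ}
    (hβ : 0 ≤ β) (ht : 0 ≤ t) (hs : s ≤ #P) (hM : M + s ≤ #P)
    (hz : ∀ i ∈ X, #(P.filter fun p : ℕ => (p : ℤ) ∣ f i) ≤ z) (hroom : β * z ≤ t * M) :
    ∃ S ⊆ P, #S = s ∧ pot X f β S ≤ #X * (1 + t) ^ s := by
  have main : ∀ j, j ≤ s → ∃ S ⊆ P, #S = j ∧ pot X f β S ≤ #X * (1 + t) ^ j := by
    intro j
    induction j with
    | zero =>
      intro _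
      refine ⟨∅, by simp, by simp, ?_⟩
      simp [pot, cnt]
    | succ j ih =>
      intro hj
      obtain ⟨S, hSP, hSc, hSp⟩ := ih (by omega)
      have hcard : #(P \ S) = #P - j := by
        rw [Finset.card_sdiff_of_subset hSP, hSc]
      have hne : (P \ S).Nonempty := by
        apply Finset.card_pos.mp
        omega
      have hroom' : β * z ≤ t * #(P \ S) := by
        refine hroom.trans ?_
        gcongr
        omega
      have hz' : ∀ i ∈ X, #((P \ S).filter fun p : ℕ => (p : ℤ) ∣ f i) ≤ z := by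
        intro i hi
        refine le_trans (Finset.card_le_card ?_) (hz i hi)
        exact Finset.filter_subset_filter _ Finset.sdiff_subset
      obtain ⟨p, hp, hpb⟩ := exists_step X f hβ S (P \ S) hne
        (fun p hp => (Finset.mem_sdiff.mp hp).2) z hz' hroom'
      have hp' := Finset.mem_sdiff.mp hp
      refine ⟨insert p S, ?_, ?_, ?_⟩
      · exact Finset.insert_subset hp'.1 hSP
      · rw [Finset.card_insert_of_notMem hp'.2, hSc]
      · calc _ ≤ pot X f β S * (1 + t) := hpb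
          _ ≤ (#X * (1 + t) ^ j) * (1 + t) := by gcongr
          _ = _ := by ring
  exact main s le_rfl

lemma cnt_mul_le_pot (X : Finset ι) (f : ι → ℤ) {β : ℝ} (hβ : 0 ≤ β) {S T : Finset ℕ} (hT : T ⊆ S) :
    (cnt X f T : ℝ) * β ^ #T ≤ pot X f β S := by
  unfold pot
  exact Finset.single_le_sum (f := fun T => (cnt X f T : ℝ) * β ^ #T)
    (fun T _ => by positivity) (Finset.mem_powerset.mpr hT)

end Select

end Vale.Agent.Lib.P012
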