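import Mathlib
import Vale.Agent.Lib.P012.Stage

open Finset

namespace Vale.Agent.Lib.P012

/-- Every number below `N` is a sum of at most `k` distinct divisors of `N`. -/
def Cov (N k : ℕ) : Prop :=
  ∀ m < N, ∃ D : Finset ℕ, (∀ d ∈ D, d ∣ N) ∧ #D ≤ k ∧ ∑ d ∈ D, d = m

/-- The general extension step: write `m = (digits) + Q * m'`. -/
lemma cov_mul {N Q k c : ℕ} (hQ : 0 < Q) (hcov : Cov N k)
    (hdig : ∀ m < Q * N, N ≤ m → ∃ D : Finset ℕ, ∃ m' < N,
      (∀ d ∈ D, d ∣ Q * N) ∧ (∀ d ∈ D, ¬ Q ∣ d) ∧ #D ≤ c ∧ m = ∑ d ∈ D, d + Q * m') :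
    Cov (Q * N) (k + c) := by
  classical
  intro m hm
  by_cases hmN : m < N
  · obtain ⟨D, hD, hc, hs⟩ := hcov m hmN
    exact ⟨D, fun d hd => Dvd.dvd.mul_left (hD d hd) Q, by omega, hs⟩
  · obtain ⟨D, m', hm', hD, hD2, hc, hs⟩ := hdig m hm (by omega)
    obtain ⟨D', hD', hc', hs'⟩ := hcov m' hm'
    have hinj : Set.InjOn (fun d => Q * d) (D' : Set ℕ) := by
      intro x _ y _ h
      exact Nat.eq_of_mul_eq_mul_left hQ h
    have hdisj : Disjoint D (D'.image fun d => Q * d) := by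
      rw [Finset.disjoint_left]
      intro x hx hx'
      obtain ⟨y, _, rfl⟩ := Finset.mem_image.mp hx'
      exact hD2 _ hx (Dvd.intro _ rfl)
    refine ⟨D ∪ D'.image fun d => Q * d, ?_, ?_, ?_⟩
    · intro d hd
      rcases Finset.mem_union.mp hd with h | h
      · exact hD d h
      · obtain ⟨y, hy, rfl⟩ := Finset.mem_image.mp h
        exact Nat.mul_dvd_mul_left Q (hD' y hy)
    · have h1 := Finset.card_union_le D (D'.image fun d => Q * d)
      have h2 := Finset.card_image_le (s := D') (f := fun d => Q * d)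
      omega
    · rw [Finset.sum_union hdisj, Finset.sum_image hinj, ← Finset.mul_sum, hs', hs]

lemma cov_factorial (n : ℕ) : Cov (n.factorial) n := by
  induction n with
  | zero =>
    intro m hm
    refine ⟨∅, by simp, by simp, ?_⟩
    simp only [Nat.factorial_zero, Nat.lt_one_iff] at hm
    simp [hm]
  | succ n ih =>
    rw [Nat.factorial_succ]
    apply cov_mul (Nat.succ_pos n) ih
    intro m hm _
    have hq : m / (n + 1) < n.factorial := Nat.div_lt_of_lt_mul hm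
    have hr : m % (n + 1) < n + 1 := Nat.mod_lt _ (Nat.succ_pos n)
    have hm' : m = m % (n + 1) + (n + 1) * (m / (n + 1)) := (Nat.mod_add_div m (n + 1)).symm
    by_cases h0 : m % (n + 1) = 0
    · refine ⟨∅, m / (n + 1), hq, by simp, by simp, by simp, ?_⟩
      rw [Finset.sum_empty]
      rw [h0] at hm'
      exact hm'
    · refine ⟨{m % (n + 1)}, m / (n + 1), hq, ?_, ?_, by simp, ?_⟩
      · intro d hd
        rw [Finset.mem_singleton] at hd
        rw [hd, ← Nat.factorial_succ]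
        apply Nat.dvd_factorial (by omega) (by omega)
      · intro d hd hdv
        rw [Finset.mem_singleton] at hd
        rw [hd] at hdv
        have := Nat.le_of_dvd (by omega) hdv
        omega
      · rw [Finset.sum_singleton]
        exact hm'

/-- One stage. -/
theorem cov_stage (e : ℕ) (he : 7 ≤ e) (H1 H2 : Finset ℕ) (c1 : #H1 = 2 ^ e) (c2 : #H2 = 2 ^ e)
    (p1 : ∀ p ∈ H1, p.Prime ∧ 6 < p ∧ p ≤ 2 ^ (7 * e + 21))
    (p2 : ∀ p ∈ H2, p.Prime ∧ 6 < p ∧ p ≤ 2 ^ (7 * e + 21))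
    (N k : ℕ) (hN : Cov N k) (hNpos : 0 < N)
    (hdvd : 60 * (∏ p ∈ H1, p) * (∏ p ∈ H2, p) ∣ N)
    (P : Finset ℕ) (hP : ∀ p ∈ P, p.Prime ∧ 2 ^ (7 * e + 25) < p ∧ p ≤ 2 ^ (7 * e + 28))
    (hP2 : 2 ^ (7 * e + 25) ≤ 4 * (7 * e + 28) * (#P - 2 ^ e / (7 * e + 28))) :
    ∃ S ⊆ P, #S = 2 ^ e / (7 * e + 28) ∧ Cov ((∏ p ∈ S, p) * N) (k + 6) := by
  classical
  have hs : 2 ^ e / (7 * e + 28) ≤ #P := by
    by_contra h
    have h0 : #P - 2 ^ e / (7 * e + 28) = 0 := by omega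
    rw [h0, Nat.mul_zero] at hP2
    have : 0 < 2 ^ (7 * e + 25) := by positivity
    omega
  obtain ⟨S, hSP, hSc, hdig⟩ := stage_digits e he H1 H2 c1 c2 p1 p2 P hP hs hP2
  refine ⟨S, hSP, hSc, ?_⟩
  have hSprime : ∀ p ∈ S, p.Prime := fun p hp => (hP p (hSP hp)).1
  have hQ : 0 < ∏ p ∈ S, p := prod_pos_of_prime hSprime
  have hspos : 0 < #S := by
    rw [hSc]
    exact Nat.div_pos (two_pow_ge e he) (by omega)
  obtain ⟨p0, hp0⟩ := Finset.card_pos.mp hspos
  have hp0' := hP p0 (hSP hp0)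
  have hp0big : 2 ^ (7 * e + 21) < p0 := by
    have : 2 ^ (7 * e + 21) ≤ 2 ^ (7 * e + 25) := Nat.pow_le_pow_right (by norm_num) (by omega)
    omega
  have hp06 : 6 < p0 := by
    have : 2 ^ 3 ≤ 2 ^ (7 * e + 21) := Nat.pow_le_pow_right (by norm_num) (by omega)
    omega
  have hp0Q : p0 ∣ ∏ p ∈ S, p := Finset.dvd_prod_of_mem _ hp0
  set PA := ∏ p ∈ H1, p with hPA
  set PB := ∏ p ∈ H2, p with hPB
  have hPApos : 0 < PA := prod_pos_of_prime fun p hp => (p1 p hp).1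
  have hPBpos : 0 < PB := prod_pos_of_prime fun p hp => (p2 p hp).1
  have hbase : 60 * PA * PB ≤ N := Nat.le_of_dvd hNpos hdvd
  -- coprimality of small numbers with the products
  have hcop : ∀ {H : Finset ℕ}, (∀ p ∈ H, p.Prime ∧ 6 < p ∧ p ≤ 2 ^ (7 * e + 21)) →
      ∀ i : Fin 6, ∀ x ∈ sp H, Nat.Coprime ((i : ℕ) + 1) x := by
    intro H pH i x hx
    have h1 : Nat.Coprime ((i : ℕ) + 1) (∏ p ∈ H, p) := by
      apply Nat.Coprime.prod_right
      intro p hp
      have hpp := pH p hp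
      apply Nat.Coprime.symm
      apply (Nat.Prime.coprime_iff_not_dvd hpp.1).mpr
      intro hd
      have := Nat.le_of_dvd (by omega) hd
      have := i.isLt
      omega
    exact Nat.Coprime.coprime_dvd_right (mem_sp_dvd hx) h1
  have hnotp0 : ∀ {H : Finset ℕ}, (∀ p ∈ H, p.Prime ∧ 6 < p ∧ p ≤ 2 ^ (7 * e + 21)) →
      ∀ x ∈ sp H, ¬ p0 ∣ x := by
    intro H pH x hx hd
    have h1 : p0 ∣ ∏ p ∈ H, p := hd.trans (mem_sp_dvd hx)
    obtain ⟨q, hq, hq'⟩ := (Prime.dvd_finsetProd_iff hp0'.1.prime _).mp h1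
    have hqq := pH q hq
    have := (Nat.prime_dvd_prime_iff_eq hp0'.1 hqq.1).mp hq'
    omega
  apply cov_mul hQ hN
  intro m hm hmN
  obtain ⟨τ, hτ, hτd⟩ := hdig (m : ℤ)
  set f : Fin 6 → ℕ := fun i => ((i : ℕ) + 1) * (τ i).1 * (τ i).2 with hf
  have hfinj : Function.Injective f := by
    intro i j hij
    have h1 : Nat.Coprime ((i : ℕ) + 1) ((τ j).1 * (τ j).2) :=
      Nat.Coprime.mul_right (hcop p1 i _ (hτ j).1) (hcop p2 i _ (hτ j).2)
    have h2 : Nat.Coprime ((j : ℕ) + 1) ((τ i).1 * (τ i).2) :=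
      Nat.Coprime.mul_right (hcop p1 j _ (hτ i).1) (hcop p2 j _ (hτ i).2)
    have h3 : ((i : ℕ) + 1) ∣ ((j : ℕ) + 1) * ((τ j).1 * (τ j).2) := by
      refine ⟨(τ i).1 * (τ i).2, ?_⟩
      have : f i = f j := hij
      simp only [hf] at this
      rw [mul_assoc, mul_assoc] at this
      exact this.symm
    have h4 : ((j : ℕ) + 1) ∣ ((i : ℕ) + 1) * ((τ i).1 * (τ i).2) := by
      refine ⟨(τ j).1 * (τ j).2, ?_⟩
      have : f i = f j := hij
      simp only [hf] at this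
      rw [mul_assoc, mul_assoc] at this
      exact this
    have h5 := h1.dvd_of_dvd_mul_right h3
    have h6 := h2.dvd_of_dvd_mul_right h4
    have h7 := Nat.dvd_antisymm h5 h6
    apply Fin.ext
    omega
  have hfle : ∀ i, f i ≤ ((i : ℕ) + 1) * (PA * PB) := by
    intro i
    simp only [hf]
    rw [mul_assoc]
    apply Nat.mul_le_mul_left
    exact Nat.mul_le_mul (mem_sp_le (fun p hp => (p1 p hp).1) (hτ i).1)
      (mem_sp_le (fun p hp => (p2 p hp).1) (hτ i).2)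
  have hsumle : ∑ i : Fin 6, f i ≤ 60 * PA * PB := by
    calc ∑ i : Fin 6, f i ≤ ∑ i : Fin 6, ((i : ℕ) + 1) * (PA * PB) := Finset.sum_le_sum fun i _ => hfle i
      _ = 21 * (PA * PB) := by
        rw [← Finset.sum_mul]
        congr 1
      _ ≤ 60 * PA * PB := by nlinarith [Nat.mul_pos hPApos hPBpos]
  have hsm : ∑ i : Fin 6, f i ≤ m := by omega
  have hdiv : (∏ p ∈ S, p) ∣ m - ∑ i : Fin 6, f i := by
    have h1 : ((∏ p ∈ S, p : ℕ) : ℤ) ∣ ((m - ∑ i : Fin 6, f i : ℕ) : ℤ) := by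
      rw [Nat.cast_sub hsm]
      have h2 : ((∑ i : Fin 6, f i : ℕ) : ℤ) =
          ∑ i : Fin 6, (((i : ℕ) + 1 : ℕ) : ℤ) * ((τ i).1 : ℤ) * ((τ i).2 : ℤ) := by
        simp only [hf]
        push_cast
        rfl
      rw [h2]
      have := (dvd_sub_comm).mp hτd
      exact this
    exact_mod_cast h1
  obtain ⟨m', hm'⟩ := hdiv
  have hm'lt : m' < N := by
    have h1 : (∏ p ∈ S, p) * m' ≤ m := by rw [← hm']; omega
    have h2 : (∏ p ∈ S, p) * m' < (∏ p ∈ S, p) * N := lt_of_le_of_lt h1 hm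
    exact Nat.lt_of_mul_lt_mul_left h2
  refine ⟨Finset.univ.image f, m', hm'lt, ?_, ?_, ?_, ?_⟩
  · intro d hd
    obtain ⟨i, _, rfl⟩ := Finset.mem_image.mp hd
    apply Dvd.dvd.mul_left
    refine dvd_trans ?_ hdvd
    simp only [hf]
    rw [mul_assoc, mul_assoc]
    apply Nat.mul_dvd_mul
    · have := i.isLt
      have h : (i : ℕ) + 1 ≤ 6 := by omega
      interval_cases (i : ℕ) <;> norm_num
    · exact Nat.mul_dvd_mul (mem_sp_dvd (hτ i).1) (mem_sp_dvd (hτ i).2)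
  · intro d hd hdQ
    obtain ⟨i, _, rfl⟩ := Finset.mem_image.mp hd
    have h1 : p0 ∣ f i := hp0Q.trans hdQ
    simp only [hf] at h1
    rcases (Nat.Prime.dvd_mul hp0'.1).mp h1 with h2 | h2
    · rcases (Nat.Prime.dvd_mul hp0'.1).mp h2 with h3 | h3
      · have := Nat.le_of_dvd (by omega) h3
        have := i.isLt
        omega
      · exact hnotp0 p1 _ (hτ i).1 h3
    · exact hnotp0 p2 _ (hτ i).2 h2
  · have := Finset.card_image_le (s := (Finset.univ : Finset (Fin 6))) (f := f)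
    simpa using this
  · rw [Finset.sum_image (fun x _ y _ h => hfinj h)]
    omega

end Vale.Agent.Lib.P012
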