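import Mathlib
import Vale.Agent.Lib.P012.Cov
import Vale.Agent.Lib.P012.Count

open Finset

namespace Vale.Agent.Lib.P012

/-- The invariant at the start of epoch `e`. -/
def Epoch (e : ℕ) : Prop :=
  ∃ (N k : ℕ) (H1 H2 : Finset ℕ), Cov N k ∧ 0 < N ∧ #H1 = 2 ^ e ∧ #H2 = 2 ^ e ∧
    (∀ p ∈ H1, p.Prime ∧ 6 < p ∧ p ≤ 2 ^ (7 * e + 21)) ∧
    (∀ p ∈ H2, p.Prime ∧ 6 < p ∧ p ≤ 2 ^ (7 * e + 21)) ∧
    60 * (∏ p ∈ H1, p) * (∏ p ∈ H2, p) ∣ N ∧ 2 ^ (2 ^ e) ≤ N ∧ k ≤ 2 ^ 15 + 48 * e * (7 * e + 28)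

/-- Two disjoint subsets of prescribed size. -/
lemma exists_two_subsets {U : Finset ℕ} {n : ℕ} (h : 2 * n ≤ #U) :
    ∃ A B : Finset ℕ, A ⊆ U ∧ B ⊆ U ∧ Disjoint A B ∧ #A = n ∧ #B = n := by
  classical
  obtain ⟨A, hA, hAc⟩ := Finset.exists_subset_card_eq (s := U) (n := n) (by omega)
  have h2 : n ≤ #(U \ A) := by
    rw [Finset.card_sdiff_of_subset hA]
    omega
  obtain ⟨B, hB, hBc⟩ := Finset.exists_subset_card_eq (s := U \ A) (n := n) h2
  refine ⟨A, B, hA, hB.trans Finset.sdiff_subset, ?_, hAc, hBc⟩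
  exact Finset.disjoint_of_subset_right hB Finset.disjoint_sdiff

lemma two_pow_le_prod {U : Finset ℕ} (hU : ∀ p ∈ U, p.Prime) : 2 ^ #U ≤ ∏ p ∈ U, p := by
  calc 2 ^ #U = ∏ _p ∈ U, 2 := by rw [Finset.prod_const]
    _ ≤ ∏ p ∈ U, p := Finset.prod_le_prod' fun p hp => (hU p hp).two_le

/-- The epoch step. -/
theorem epoch_step (e : ℕ) (he : 7 ≤ e) (h : Epoch e) : Epoch (e + 1) := by
  classical
  obtain ⟨N, k, H1, H2, hcov, hNpos, c1, c2, p1, p2, hdvd, hNbig, hk⟩ := h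
  set g := 2 ^ e with hg
  set b := 7 * e + 28 with hb
  set a := 7 * e + 25 with ha
  set s := g / b with hs
  have hgb : b ≤ g := two_pow_ge e he
  have hbpos : 0 < b := by omega
  have hbs : b * s ≤ g := Nat.mul_div_le g b
  have hbs2 : g < 2 * (b * s) := by
    have h1 : g = b * s + g % b := (Nat.div_add_mod g b).symm
    have h2 : g % b < b := Nat.mod_lt _ hbpos
    have h3 : 1 ≤ s := Nat.div_pos hgb hbpos
    have h4 : b ≤ b * s := Nat.le_mul_of_pos_right _ h3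
    omega
  set PP := primesIn a with hPP
  have hcount : 2 ^ a ≤ a * #PP := prime_count a (by omega)
  have hab : a + 3 = b := by omega
  have hmem : ∀ p ∈ PP, p.Prime ∧ 2 ^ a < p ∧ p ≤ 2 ^ b := by
    intro p hp
    have := mem_primesIn.mp hp
    rw [hab] at this
    exact this
  -- room in the prime pool
  have h32 : 32 * b * g ≤ 2 ^ a := by
    calc 32 * b * g ≤ 32 * g * g := by gcongr
      _ = 2 ^ (2 * e + 5) := by
        rw [hg]
        ring
      _ ≤ 2 ^ a := Nat.pow_le_pow_right (by norm_num) (by omega)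
  have hroom : ∀ t : ℕ, (t + 1) * s ≤ 8 * g → ∀ U ⊆ PP, #U = t * s →
      2 ^ a ≤ 4 * b * (#(PP \ U) - s) := by
    intro t ht U hU hUc
    rw [Finset.card_sdiff_of_subset hU, hUc]
    have h1 : #PP - 8 * g ≤ #PP - t * s - s := by
      have : (t + 1) * s = t * s + s := by ring
      omega
    have h2 : 4 * b * (#PP - 8 * g) ≤ 4 * b * (#PP - t * s - s) := Nat.mul_le_mul_left _ h1
    refine le_trans ?_ h2
    rw [Nat.mul_sub]
    have h3 : 4 * b * (8 * g) = 32 * b * g := by ring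
    have h4 : a * #PP ≤ b * #PP := Nat.mul_le_mul_right _ (by omega)
    have h5 : 4 * b * #PP = 4 * (b * #PP) := by ring
    omega
  -- the inner loop
  have hloop : ∀ t : ℕ, t ≤ 8 * b → ∃ U ⊆ PP, #U = t * s ∧ Cov ((∏ p ∈ U, p) * N) (k + 6 * t) := by
    intro t
    induction t with
    | zero =>
      intro _
      refine ⟨∅, Finset.empty_subset _, by simp, ?_⟩
      simpa using hcov
    | succ t ih =>
      intro ht
      obtain ⟨U, hU, hUc, hUcov⟩ := ih (by omega)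
      have hUprime : ∀ p ∈ U, p.Prime := fun p hp => (hmem p (hU hp)).1
      have hUpos : 0 < ∏ p ∈ U, p := prod_pos_of_prime hUprime
      have hts : (t + 1) * s ≤ 8 * g := by
        calc (t + 1) * s ≤ (8 * b) * s := Nat.mul_le_mul_right _ ht
          _ = 8 * (b * s) := by ring
          _ ≤ 8 * g := Nat.mul_le_mul_left _ hbs
      obtain ⟨S, hS, hSc, hScov⟩ := cov_stage e he H1 H2 c1 c2 p1 p2 ((∏ p ∈ U, p) * N) (k + 6 * t)
        hUcov (Nat.mul_pos hUpos hNpos) (Dvd.dvd.mul_left hdvd _) (PP \ U)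
        (fun p hp => hmem p (Finset.mem_sdiff.mp hp).1) (hroom t hts U hU hUc)
      have hdisj : Disjoint U S := Finset.disjoint_of_subset_right hS Finset.disjoint_sdiff
      refine ⟨U ∪ S, Finset.union_subset hU (hS.trans Finset.sdiff_subset), ?_, ?_⟩
      · rw [Finset.card_union_of_disjoint hdisj, hUc, hSc]
        ring
      · rw [Finset.prod_union hdisj]
        have h1 : (∏ p ∈ U, p) * (∏ p ∈ S, p) * N = (∏ p ∈ S, p) * ((∏ p ∈ U, p) * N) := by ring
        rw [h1]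
        have h2 : k + 6 * (t + 1) = k + 6 * t + 6 := by ring
        rw [h2]
        exact hScov
  obtain ⟨U, hU, hUc, hUcov⟩ := hloop (8 * b) le_rfl
  have hUprime : ∀ p ∈ U, p.Prime := fun p hp => (hmem p (hU hp)).1
  have hUpos : 0 < ∏ p ∈ U, p := prod_pos_of_prime hUprime
  have hUcard : 2 * 2 ^ (e + 1) ≤ #U := by
    rw [hUc]
    have h1 : 8 * b * s = 4 * (2 * (b * s)) := by ring
    have h2 : 2 * 2 ^ (e + 1) = 4 * g := by rw [hg, pow_succ]; ring
    omega
  obtain ⟨A, B, hA, hB, hAB, hAc, hBc⟩ := exists_two_subsets hUcard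
  have hnew : ∀ p ∈ U, p.Prime ∧ 6 < p ∧ p ≤ 2 ^ (7 * (e + 1) + 21) := by
    intro p hp
    obtain ⟨h1, h2, h3⟩ := hmem p (hU hp)
    refine ⟨h1, ?_, ?_⟩
    · have : 2 ^ 3 ≤ 2 ^ a := Nat.pow_le_pow_right (by norm_num) (by omega)
      omega
    · have h4 : 7 * (e + 1) + 21 = b := by omega
      rw [h4]
      exact h3
  refine ⟨(∏ p ∈ U, p) * N, k + 6 * (8 * b), A, B, hUcov, Nat.mul_pos hUpos hNpos, hAc, hBc,
    fun p hp => hnew p (hA hp), fun p hp => hnew p (hB hp), ?_, ?_, ?_⟩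
  · have h60 : 60 ∣ N := by
      refine dvd_trans ?_ hdvd
      rw [mul_assoc]
      exact Dvd.intro _ rfl
    have hprod : (∏ p ∈ A, p) * (∏ p ∈ B, p) ∣ ∏ p ∈ U, p := by
      rw [← Finset.prod_union hAB]
      exact Finset.prod_dvd_prod_of_subset _ _ _ (Finset.union_subset hA hB)
    have h1 : 60 * (∏ p ∈ A, p) * (∏ p ∈ B, p) = ((∏ p ∈ A, p) * (∏ p ∈ B, p)) * 60 := by ring
    rw [h1]
    exact Nat.mul_dvd_mul hprod h60
  · have h1 : 2 ^ (2 ^ (e + 1)) ≤ 2 ^ #U :=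
      Nat.pow_le_pow_right (by norm_num) (by omega)
    calc 2 ^ (2 ^ (e + 1)) ≤ 2 ^ #U := h1
      _ ≤ ∏ p ∈ U, p := two_pow_le_prod hUprime
      _ ≤ (∏ p ∈ U, p) * N := Nat.le_mul_of_pos_right _ hNpos
  · have h1 : 48 * e * b + 6 * (8 * b) ≤ 48 * (e + 1) * (7 * (e + 1) + 28) := by
      rw [hb]
      nlinarith
    calc k + 6 * (8 * b) ≤ (2 ^ 15 + 48 * e * b) + 6 * (8 * b) := Nat.add_le_add_right hk _
      _ = 2 ^ 15 + (48 * e * b + 6 * (8 * b)) := Nat.add_assoc _ _ _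
      _ ≤ 2 ^ 15 + 48 * (e + 1) * (7 * (e + 1) + 28) := Nat.add_le_add_left h1 _

/-- The base epoch. -/
theorem epoch_base : Epoch 7 := by
  classical
  obtain ⟨M, hM⟩ : ∃ M : ℕ, M = 2 ^ 15 := ⟨_, rfl⟩
  have hcount := prime_count 12 le_rfl
  have hU : 2 * 2 ^ 7 ≤ #(primesIn 12) := by
    norm_num at hcount ⊢
    omega
  obtain ⟨A, B, hA, hB, hAB, hAc, hBc⟩ := exists_two_subsets hU
  have hnew : ∀ p ∈ primesIn 12, p.Prime ∧ 6 < p ∧ p ≤ 2 ^ (7 * 7 + 21) := by
    intro p hp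
    obtain ⟨h1, h2, h3⟩ := mem_primesIn.mp hp
    refine ⟨h1, ?_, ?_⟩
    · have : 2 ^ 3 ≤ 2 ^ 12 := Nat.pow_le_pow_right (by norm_num) (by omega)
      omega
    · refine h3.trans ?_
      exact Nat.pow_le_pow_right (by norm_num) (by omega)
  have hprime : ∀ p ∈ A ∪ B, p.Prime := fun p hp =>
    (hnew p ((Finset.union_subset hA hB) hp)).1
  have hprod : (∏ p ∈ A, p) * (∏ p ∈ B, p) ∣ M.factorial := by
    rw [← Finset.prod_union hAB]
    apply Finset.prod_primes_dvd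
    · intro p hp
      exact (hprime p hp).prime
    · intro p hp
      apply Nat.dvd_factorial (hprime p hp).pos
      have := (mem_primesIn.mp ((Finset.union_subset hA hB) hp)).2.2
      rw [hM]
      exact this
  have h60 : 60 ∣ M.factorial := Nat.dvd_factorial (by norm_num) (by rw [hM]; norm_num)
  have hcop : Nat.Coprime 60 ((∏ p ∈ A, p) * (∏ p ∈ B, p)) := by
    rw [← Finset.prod_union hAB]
    apply Nat.Coprime.prod_right
    intro p hp
    have h1 := hnew p ((Finset.union_subset hA hB) hp)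
    apply Nat.Coprime.symm
    apply (Nat.Prime.coprime_iff_not_dvd h1.1).mpr
    intro hd
    have h2 : p ∣ 2 ^ 2 * 3 * 5 := by norm_num; exact hd
    rcases (Nat.Prime.dvd_mul h1.1).mp h2 with h3 | h3
    · rcases (Nat.Prime.dvd_mul h1.1).mp h3 with h4 | h4
      · have := Nat.le_of_dvd (by norm_num) h4
        omega
      · have := Nat.le_of_dvd (by norm_num) h4
        omega
    · have := Nat.le_of_dvd (by norm_num) h3
      omega
  have hFpos : 0 < M.factorial := Nat.factorial_pos M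
  refine ⟨M.factorial, M, A, B, cov_factorial M, hFpos, hAc, hBc,
    fun p hp => hnew p (hA hp), fun p hp => hnew p (hB hp), ?_, ?_, ?_⟩
  · rw [mul_assoc]
    exact hcop.mul_dvd_of_dvd_of_dvd h60 hprod
  · have hAp : ∀ p ∈ A ∪ B, p.Prime := hprime
    have h1 := two_pow_le_prod hAp
    rw [Finset.card_union_of_disjoint hAB, hAc, hBc, Finset.prod_union hAB] at h1
    have h2 := Nat.le_of_dvd hFpos hprod
    have h3 : 2 ^ (2 ^ 7) ≤ 2 ^ (2 ^ 7 + 2 ^ 7) := Nat.pow_le_pow_right (by norm_num) (by omega)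
    omega
  · rw [hM]
    norm_num

theorem epoch_all (e : ℕ) (he : 7 ≤ e) : Epoch e := by
  induction e, he using Nat.le_induction with
  | base => exact epoch_base
  | succ n hn ih => exact epoch_step n hn ih

end Vale.Agent.Lib.P012
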