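import Mathlib
import Vale.Agent.Lib.P012.Epoch

open Finset

namespace Vale.Agent.Lib.P012

/-- From a covering statement to Egyptian fractions. -/
theorem egyptian_of_cov {N k a b : ℕ} (hN : 0 < N) (hcov : Cov N k) (ha : 1 ≤ a) (hab : a < b)
    (hbN : b ≤ N) :
    ∃ S : Finset ℕ, (∀ n ∈ S, 2 ≤ n) ∧ #S ≤ 2 * k ∧ ∑ n ∈ S, (1 / (n : ℚ)) = (a : ℚ) / b := by
  classical
  have hb : 0 < b := by omega
  set q := a * N / b with hq
  set r := a * N % b with hr
  have hqN : q < N := Nat.div_lt_of_lt_mul (Nat.mul_lt_mul_of_pos_right hab hN)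
  have hrb : r < b := Nat.mod_lt _ hb
  have hdecomp : b * q + r = a * N := Nat.div_add_mod _ _
  obtain ⟨D1, hD1, hc1, hs1⟩ := hcov q hqN
  obtain ⟨D2, hD2, hc2, hs2⟩ := hcov r (by omega)
  have hpos1 : ∀ d ∈ D1, 0 < d := fun d hd => Nat.pos_of_dvd_of_pos (hD1 d hd) hN
  have hpos2 : ∀ d ∈ D2, 0 < d := fun d hd => Nat.pos_of_dvd_of_pos (hD2 d hd) hN
  have hle1 : ∀ d ∈ D1, d ≤ q := by
    intro d hd
    rw [← hs1]
    exact Finset.single_le_sum (f := fun x => x) (fun _ _ => Nat.zero_le _) hd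
  have hle2 : ∀ d ∈ D2, d ≤ r := by
    intro d hd
    rw [← hs2]
    exact Finset.single_le_sum (f := fun x => x) (fun _ _ => Nat.zero_le _) hd
  have hdvd2 : ∀ d ∈ D2, d ∣ b * N := fun d hd => Dvd.dvd.mul_left (hD2 d hd) b
  have hbNpos : 0 < b * N := Nat.mul_pos hb hN
  -- basic identities
  have hm1 : ∀ d ∈ D1, N / d * d = N := fun d hd => Nat.div_mul_cancel (hD1 d hd)
  have hm2 : ∀ d ∈ D2, b * N / d * d = b * N := fun d hd => Nat.div_mul_cancel (hdvd2 d hd)
  have hinj1 : Set.InjOn (fun d => N / d) (D1 : Set ℕ) := by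
    intro x hx y hy h
    have h' : N / x = N / y := h
    have h1 := hm1 x hx
    have h2 := hm1 y hy
    rw [h'] at h1
    have hnpos : 0 < N / y := Nat.div_pos (hle1 y hy |>.trans hqN.le) (hpos1 y hy)
    exact Nat.eq_of_mul_eq_mul_left hnpos (h1.trans h2.symm)
  have hinj2 : Set.InjOn (fun d => b * N / d) (D2 : Set ℕ) := by
    intro x hx y hy h
    have h' : b * N / x = b * N / y := h
    have h1 := hm2 x hx
    have h2 := hm2 y hy
    rw [h'] at h1
    have hle : y ≤ b * N := Nat.le_of_dvd hbNpos (hdvd2 y hy)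
    have hnpos : 0 < b * N / y := Nat.div_pos hle (hpos2 y hy)
    exact Nat.eq_of_mul_eq_mul_left hnpos (h1.trans h2.symm)
  have hdisj : Disjoint (D1.image fun d => N / d) (D2.image fun d => b * N / d) := by
    rw [Finset.disjoint_left]
    intro n hn hn'
    obtain ⟨x, hx, hxn⟩ := Finset.mem_image.mp hn
    obtain ⟨y, hy, hyn⟩ := Finset.mem_image.mp hn'
    have h1 := hm1 x hx
    have h2 := hm2 y hy
    have hxn' : N / x = n := hxn
    have hyn' : b * N / y = n := hyn
    rw [hxn'] at h1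
    rw [hyn'] at h2
    have hnpos : 0 < n := by
      rcases Nat.eq_zero_or_pos n with h0 | h0
      · rw [h0] at h1
        omega
      · exact h0
    have h3 : n * y = n * (b * x) := by
      rw [h2, ← h1]
      ring
    have h4 : y = b * x := Nat.eq_of_mul_eq_mul_left hnpos h3
    have h5 : b ≤ b * x := Nat.le_mul_of_pos_right _ (hpos1 x hx)
    have h6 := hle2 y hy
    omega
  refine ⟨D1.image (fun d => N / d) ∪ D2.image (fun d => b * N / d), ?_, ?_, ?_⟩
  · intro n hn
    rcases Finset.mem_union.mp hn with h | h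
    · obtain ⟨x, hx, rfl⟩ := Finset.mem_image.mp h
      have h1 := hm1 x hx
      have h2 := hle1 x hx
      by_contra hlt
      have : N / x ≤ 1 := by omega
      have h3 : N / x * x ≤ 1 * x := Nat.mul_le_mul_right _ this
      omega
    · obtain ⟨y, hy, rfl⟩ := Finset.mem_image.mp h
      have h1 := hm2 y hy
      have h2 := hle2 y hy
      by_contra hlt
      have : b * N / y ≤ 1 := by omega
      have h3 : b * N / y * y ≤ 1 * y := Nat.mul_le_mul_right _ this
      have h4 : b ≤ b * N := Nat.le_mul_of_pos_right _ hN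
      omega
  · have h1 := Finset.card_union_le (D1.image fun d => N / d) (D2.image fun d => b * N / d)
    have h2 := Finset.card_image_le (s := D1) (f := fun d => N / d)
    have h3 := Finset.card_image_le (s := D2) (f := fun d => b * N / d)
    omega
  · rw [Finset.sum_union hdisj, Finset.sum_image hinj1, Finset.sum_image hinj2]
    have hNq : (N : ℚ) ≠ 0 := by exact_mod_cast hN.ne'
    have hbq : (b : ℚ) ≠ 0 := by exact_mod_cast hb.ne'
    have e1 : ∑ x ∈ D1, (1 / (((N / x : ℕ) : ℕ) : ℚ)) = (q : ℚ) / N := by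
      rw [← hs1]
      push_cast
      rw [Finset.sum_div]
      apply Finset.sum_congr rfl
      intro d hd
      have hdq : (d : ℚ) ≠ 0 := by exact_mod_cast (hpos1 d hd).ne'
      rw [Nat.cast_div (hD1 d hd) hdq]
      field_simp
    have e2 : ∑ x ∈ D2, (1 / (((b * N / x : ℕ) : ℕ) : ℚ)) = (r : ℚ) / ((b : ℚ) * N) := by
      rw [← hs2]
      push_cast
      rw [Finset.sum_div]
      apply Finset.sum_congr rfl
      intro d hd
      have hdq : (d : ℚ) ≠ 0 := by exact_mod_cast (hpos2 d hd).ne'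
      rw [Nat.cast_div (hdvd2 d hd) hdq]
      push_cast
      field_simp
    rw [e1, e2]
    have hdq : ((b : ℚ) * q + r) = a * N := by exact_mod_cast hdecomp
    field_simp
    linarith

end Vale.Agent.Lib.P012
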